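import Vale.Agent.P154.Gw.Assemble

/-!
# The Poisson threshold from a flow bound and the endgame near the origin
-/

namespace Vale.Agent.P154.Q3

open Filter Topology

/-- A bound `6 / 100` on the limit of the mean squared bias on the critical line, together with
the endgame below it, gives the whole Poisson threshold. -/
theorem gw_iff_of_parts
    (flow : ∀ lam : ℝ, -1 / 2 ≤ lam → lam < 0 → 4 ≤ 1 / lam ^ 2 → 1 / lam ^ 2 < 27 →
      ∀ P R A B : ℝ, Tendsto (fun n => gwAvg (1 / lam ^ 2) lam n (rf P2)) atTop (𝓝 P) →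
        Tendsto (fun n => gwAvg (1 / lam ^ 2) lam n (rf P3)) atTop (𝓝 R) →
        Tendsto (fun n => gwAvg (1 / lam ^ 2) lam n (rf P4)) atTop (𝓝 A) →
        Tendsto (fun n => gwAvg (1 / lam ^ 2) lam n (rf P5)) atTop (𝓝 B) →
        P ≤ 99 / 20 → P ≤ 6 / 100)
    (small : ∀ δ ρ α β, ScaledPt gwNode (1 / 2) δ ρ α β → δ ≤ 6 / 100 → δ ≤ 0)
    {d lam : ℝ} (hd : 0 < d) (h0 : -1 / 2 ≤ lam) (h1 : lam ≤ 1) :
    (Tendsto (aPoisson 3 d lam) atTop (𝓝 0) ↔ d * lam ^ 2 ≤ 1) ∧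
      (1 < d * lam ^ 2 → ∃ c > 0, ∀ n, c ≤ aPoisson 3 d lam n) := by
  refine gw_iff_of_limit (fun μ m0 m1 m4 m27 P hP P0 PM => ?_) hd h0 h1
  have hd' : (0 : ℝ) ≤ 1 / μ ^ 2 := by positivity
  have hμ : μ ≤ 1 := by linarith
  obtain ⟨P', R', A', B', hP', -, hL⟩ := gw_limPt hd' m0 hμ
  obtain rfl : P = P' := tendsto_nhds_unique hP hP'
  obtain ⟨R, hR⟩ := spanned_P3.tendsto_gw hd' m0 hμ
  obtain ⟨A, hA⟩ := spanned_P4.tendsto_gw hd' m0 hμ
  obtain ⟨B, hB⟩ := spanned_P5.tendsto_gw hd' m0 hμ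
  have hb := flow μ m0 m1 m4 m27 P R A B hP hR hA hB PM
  have hcrit : 1 / μ ^ 2 * μ ^ 2 = 1 := div_mul_cancel₀ _ (pow_ne_zero 2 m1.ne)
  have s := hL.scaled (μ := 1 / 2) hd' (by linarith) m1.le (le_of_eq hcrit)
  have := small _ _ _ _ s (by rw [hcrit, one_mul]; exact hb)
  rw [hcrit, one_mul] at this
  exact le_antisymm this P0

end Vale.Agent.P154.Q3
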