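import Vale.Agent.P154.AvgLimit
import Vale.Agent.P154.End.Finish

/-!
# Reduction of the Poisson model to the critical line below mean 27

Monotonicity in the mean puts every `(d, λ)` with `d λ² ≤ 1` below `(1/λ², λ)`, and means of at
least 27 are settled already.
-/

namespace Vale.Agent.P154.Q3

open Filter Topology

variable {d d' lam : ℝ}

theorem aPoisson_mono (hd : 0 ≤ d) (hdd : d ≤ d') (h0 : -1 / 2 ≤ lam) (h1 : lam ≤ 1) (n : ℕ) :
    aPoisson 3 d lam n ≤ aPoisson 3 d' lam n := by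
  simp only [← gwAdv_eq, gwAdv_eq_gwAvg]
  exact gwAvg_mono hd hdd h0 h1 n posi_advF.toSublin

/-- Vanishing of the mean squared bias gives nonreconstruction. -/
theorem tendsto_aPoisson_of_P2 (hd : 0 ≤ d) (h0 : -1 / 2 ≤ lam) (h1 : lam ≤ 1)
    (h : Tendsto (fun n => gwAvg d lam n (rf P2)) atTop (𝓝 0)) :
    Tendsto (aPoisson 3 d lam) atTop (𝓝 0) := by
  refine tendsto_aPoisson (adm_three' h0 h1) hd ?_
  have e : ∀ n, magPoisson 3 d lam n = gwAvg d lam n (rf P2) / 9 := fun n => by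
    rw [gwAvg, ← tsum_div_const]
    refine tsum_congr fun t => ?_
    rw [fval_P2_eq t h0 h1, mag_eq, gwWeight_eq]
    ring
  simp only [funext e]
  simpa using h.div_const 9

/-- Nonreconstruction at a mean carries over to every smaller mean. -/
theorem tendsto_aPoisson_anti (hd : 0 ≤ d) (hdd : d ≤ d') (h0 : -1 / 2 ≤ lam) (h1 : lam ≤ 1)
    (h : Tendsto (aPoisson 3 d' lam) atTop (𝓝 0)) :
    Tendsto (aPoisson 3 d lam) atTop (𝓝 0) :=
  squeeze_zero (fun n => aPoisson_nonneg hd n) (fun n => aPoisson_mono hd hdd h0 h1 n) h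

/-- The three-state threshold on Poisson trees, given nonreconstruction on the critical line with
mean in `[4, 27)` and negative eigenvalue. -/
theorem gw_iff_of_critical
    (H : ∀ lam : ℝ, -1 / 2 ≤ lam → lam < 0 → 4 ≤ 1 / lam ^ 2 → 1 / lam ^ 2 < 27 →
      Tendsto (aPoisson 3 (1 / lam ^ 2) lam) atTop (𝓝 0))
    (hd : 0 < d) (h0 : -1 / 2 ≤ lam) (h1 : lam ≤ 1) :
    (Tendsto (aPoisson 3 d lam) atTop (𝓝 0) ↔ d * lam ^ 2 ≤ 1) ∧
      (1 < d * lam ^ 2 → ∃ c > 0, ∀ n, c ≤ aPoisson 3 d lam n) := by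
  rcases le_or_gt 0 lam with hp | hn
  · exact gw_iff hd hp h1
  have hA := adm_three' h0 h1
  have key : 1 < d * lam ^ 2 → ∃ c > 0, ∀ n, c ≤ aPoisson 3 d lam n := fun h =>
    ⟨_, ksBound_pos hA h, ksBound_le_aPoisson hA hd h⟩
  refine ⟨⟨fun ht => not_lt.1 fun hlt => ?_, fun h => ?_⟩, key⟩
  · obtain ⟨c, hc, hle⟩ := key hlt
    exact not_tendsto_of_le hc hle ht
  have hl : 0 < lam ^ 2 := sq_pos_of_neg hn
  refine tendsto_aPoisson_anti hd.le ((le_div_iff₀ hl).2 h) h0 h1 ?_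
  have h4 : 4 ≤ 1 / lam ^ 2 := by rw [le_div_iff₀ hl]; nlinarith
  rcases lt_or_ge (1 / lam ^ 2) 27 with h27 | h27
  · exact H lam h0 hn h4 h27
  · exact (gw_iff_large h27 h0 h1).1.2 (le_of_eq (div_mul_cancel₀ 1 hl.ne'))

end Vale.Agent.P154.Q3
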