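import Vale.Agent.P154.Gw.First
import Vale.Agent.P154.Gw.Reduce

/-!
# The Poisson threshold from a statement about the limit on the critical line
-/

namespace Vale.Agent.P154.Q3

open Filter Topology

/-- It suffices that, on the critical line with mean in `[4, 27)`, a limit of the mean squared bias
which is at most `99 / 20` vanishes. -/
theorem gw_iff_of_limit
    (H : ∀ lam : ℝ, -1 / 2 ≤ lam → lam < 0 → 4 ≤ 1 / lam ^ 2 → 1 / lam ^ 2 < 27 →
      ∀ P : ℝ, Tendsto (fun n => gwAvg (1 / lam ^ 2) lam n (rf P2)) atTop (𝓝 P) →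
        0 ≤ P → P ≤ 99 / 20 → P = 0)
    {d lam : ℝ} (hd : 0 < d) (h0 : -1 / 2 ≤ lam) (h1 : lam ≤ 1) :
    (Tendsto (aPoisson 3 d lam) atTop (𝓝 0) ↔ d * lam ^ 2 ≤ 1) ∧
      (1 < d * lam ^ 2 → ∃ c > 0, ∀ n, c ≤ aPoisson 3 d lam n) := by
  refine gw_iff_of_critical (fun μ m0 m1 m4 m27 => ?_) hd h0 h1
  have hd' : (0 : ℝ) ≤ 1 / μ ^ 2 := by positivity
  obtain ⟨P, R, A, B, hP, -, hL⟩ := gw_limPt hd' m0 (by linarith)
  have := H μ m0 m1 m4 m27 P hP hL.box.P0 (limit_P2_le m0 m1 hP)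
  subst this
  exact tendsto_aPoisson_of_P2 hd' m0 (by linarith) hP

end Vale.Agent.P154.Q3
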