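import Vale.Agent.P154.End.Finish

/-!
# The first level of the Poisson tree on the critical line

With `L` the sum of the likelihoods `l`, `l i l j / L ≥ 2 w √(l i l j) - w² L` for every weight `w`.
A weight that is a product over the children makes the mean of each side an exponential, and the
mean squared bias at depth one, hence in the limit, is at most `99 / 20`.
-/

namespace Vale.Agent.P154.Q3

open scoped BigOperators Topology
open Filter

variable {d lam : ℝ}

/-- The one-sided tangent bound behind the Cauchy-Schwarz inequality. -/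
theorem tangent_div_le {L G w : ℝ} (hL : 0 < L) : 2 * w * G - w ^ 2 * L ≤ G ^ 2 / L := by
  rw [le_div_iff₀ hL]
  nlinarith [sq_nonneg (G - w * L)]

/-- The pointwise bound, `G k` being the geometric mean of the two values other than the `k`-th. -/
theorem rf_P2_le_of_weights {l : Fin 3 → ℝ} (hl : ∀ i, 0 ≤ l i) (w G : Fin 3 → ℝ)
    (h0 : G 0 ^ 2 = l 1 * l 2) (h1 : G 1 ^ 2 = l 2 * l 0) (h2 : G 2 ^ 2 = l 0 * l 1) :
    rf P2 l ≤ 2 * tot l - 6 * ∑ k, (2 * (w k * G k) - w k ^ 2 * tot l) := by
  rcases (tot_nonneg hl).eq_or_lt with ht | ht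
  · have z := eq_zero_of_tot hl ht.symm
    simp only [z, Pi.zero_apply, mul_zero, sq_eq_zero_iff] at h0 h1 h2
    simp [rf, z, tot, Fin.sum_univ_three, h0, h1, h2]
  · have a := tangent_div_le (G := G 0) (w := w 0) ht
    have b := tangent_div_le (G := G 1) (w := w 1) ht
    have c := tangent_div_le (G := G 2) (w := w 2) ht
    have e : rf P2 l = 2 * tot l - 6 * (G 0 ^ 2 / tot l + G 1 ^ 2 / tot l + G 2 ^ 2 / tot l) := by
      have hne : l 0 + l 1 + l 2 ≠ 0 := ne_of_gt ht
      simp only [rf, rr, P2, h0, h1, h2, tot]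
      field_simp
      ring
    rw [e, Fin.sum_univ_three]
    linarith

/-- The bound on a node with `k` children seeing their spins, for weights `c θ ^ N`, `N` counting
the children with one of two colours. -/
theorem fval_star_le (h0 : -1 / 2 ≤ lam) (h1 : lam ≤ 1) {k : ℕ} (c θ : ℝ) :
    fval (rf P2) (prodL fun _ : Fin k => fun (e : Fin 3) (i : Fin 3) => potts lam i e) ≤
      6 - 18 * (2 * c * ((1 - lam) / 3 + 2 * (θ * √((1 + 2 * lam) / 3 * ((1 - lam) / 3)))) ^ k -
        c ^ 2 * (2 * (((1 + 2 * lam) / 3 + (1 - lam) / 3) * θ ^ 2 + (1 - lam) / 3) ^ k +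
          ((1 + 2 * lam) / 3 + 2 * ((1 - lam) / 3) * θ ^ 2) ^ k)) := by
  set a := (1 + 2 * lam) / 3 with ha
  set b := (1 - lam) / 3 with hb
  have a0 : 0 ≤ a := by rw [ha]; linarith
  have b0 : 0 ≤ b := by rw [hb]; linarith
  have hs : √(a * b) ^ 2 = a * b := Real.sq_sqrt (mul_nonneg a0 b0)
  have pd : ∀ i, potts lam i i = a := fun i => by simp only [potts, ha, if_true]; ring
  have po : ∀ i j, i ≠ j → potts lam i j = b := fun i j h => by
    simp only [potts, hb, if_neg h]; ring
  have pn : ∀ i j, 0 ≤ potts lam i j := fun i j => by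
    rcases eq_or_ne i j with rfl | h
    · rwa [pd]
    · rwa [po i j h]
  set g : Fin 3 → Fin 3 → ℝ := fun m e => if e = m then b else √(a * b) with hg
  set u : Fin 3 → Fin 3 → ℝ := fun m e => if e = m then 1 else θ with hu
  have key : ∀ η : Fin k → Fin 3, rf P2 (fun i => ∏ j, potts lam i (η j)) ≤
      2 * (∑ i, ∏ j, potts lam i (η j)) - 6 * ∑ m, (2 * (c * ∏ j, u m (η j) * g m (η j)) -
        ∑ i, c ^ 2 * ∏ j, u m (η j) ^ 2 * potts lam i (η j)) := by
    intro η
    have hG : ∀ m p q : Fin 3, p ≠ m → q ≠ m → p ≠ q →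
        (∏ j, g m (η j)) ^ 2 = (∏ j, potts lam p (η j)) * ∏ j, potts lam q (η j) := by
      intro m p q hp hq hpq
      rw [← Finset.prod_pow, ← Finset.prod_mul_distrib]
      refine Finset.prod_congr rfl fun j _ => ?_
      simp only [hg]
      generalize η j = e
      split_ifs with h
      · subst h; rw [po _ _ hp, po _ _ hq, sq]
      · rw [hs]
        rcases eq_or_ne p e with rfl | h'
        · rw [pd, po _ _ hpq.symm]
        · obtain rfl : q = e := by revert m p q e; decide
          rw [pd, po _ _ h', mul_comm]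
    have ht : tot (fun i => ∏ j, potts lam i (η j)) = ∑ i, ∏ j, potts lam i (η j) := by
      simp [tot, Fin.sum_univ_three]
    refine (rf_P2_le_of_weights (fun i => Finset.prod_nonneg fun j _ => pn _ _)
      (fun m => c * ∏ j, u m (η j)) (fun m => ∏ j, g m (η j))
      (hG 0 1 2 (by decide) (by decide) (by decide)) (hG 1 2 0 (by decide) (by decide) (by decide))
      (hG 2 0 1 (by decide) (by decide) (by decide))).trans (le_of_eq ?_)
    rw [ht]
    refine congrArg₂ _ rfl (congrArg _ (Finset.sum_congr rfl fun m _ => ?_))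
    rw [mul_assoc c, ← Finset.prod_mul_distrib, Finset.mul_sum]
    refine congrArg₂ _ rfl (Finset.sum_congr rfl fun i _ => ?_)
    rw [mul_pow, ← Finset.prod_pow, mul_assoc, ← Finset.prod_mul_distrib]
  refine (Finset.sum_le_sum fun η _ => key η).trans (le_of_eq ?_)
  have p1 : ∀ i, ∑ η : Fin k → Fin 3, ∏ j, potts lam i (η j) = 1 := fun i => by
    have h : ∑ e, potts lam i e = 1 := by
      fin_cases i <;> simp [potts, Fin.sum_univ_three] <;> ring
    rw [← Fintype.prod_sum, Finset.prod_eq_one fun _ _ => h]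
  have p2 : ∀ m, ∑ η : Fin k → Fin 3, ∏ j, u m (η j) * g m (η j) =
      (b + 2 * (θ * √(a * b))) ^ k := fun m => by
    have h : ∑ e, u m e * g m e = b + 2 * (θ * √(a * b)) := by
      fin_cases m <;> simp [hu, hg, Fin.sum_univ_three] <;> ring
    rw [← Fintype.prod_sum fun (_ : Fin k) e => u m e * g m e]
    simp [h]
  have p3 : ∀ m i, ∑ η : Fin k → Fin 3, ∏ j, u m (η j) ^ 2 * potts lam i (η j) =
      (if i = m then a + 2 * b * θ ^ 2 else (a + b) * θ ^ 2 + b) ^ k := fun m i => by
    have h : ∑ e, u m e ^ 2 * potts lam i e =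
        if i = m then a + 2 * b * θ ^ 2 else (a + b) * θ ^ 2 + b := by
      fin_cases m <;> fin_cases i <;> simp [hu, potts, ha, hb, Fin.sum_univ_three] <;> ring
    rw [← Fintype.prod_sum fun (_ : Fin k) e => u m e ^ 2 * potts lam i e]
    simp [h]
  simp only [Fin.sum_univ_three (f := fun m => _), Finset.sum_sub_distrib, Finset.sum_add_distrib,
    ← Finset.mul_sum, p1, p2, p3, Fin.isValue, Fin.reduceEq, if_true, if_false]
  ring

/-- The numerical inequality, after substituting the exponents. -/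
theorem first_num {z : ℝ} (h0 : 0 ≤ z) (h1 : z ≤ 1 / 3) :
    21 / 20 * (2 + Real.exp (-(9 / 2 * z * (1 + z)))) ≤ 18 * Real.exp (-(3 / 2 * (1 + z))) := by
  set y := 3 / 2 * z with hy
  set r := 9 / 2 * z * (1 + z) with hr
  have y0 : 0 ≤ y := by rw [hy]; linarith
  have y1 : y ≤ 1 / 2 := by rw [hy]; linarith
  have r0 : 0 ≤ r := by positivity
  have e32 : Real.exp (3 / 2) ≤ 4482 / 1000 := by
    have h : Real.exp (3 / 2) * Real.exp (3 / 2) = Real.exp 1 * Real.exp 1 * Real.exp 1 := by
      rw [← Real.exp_add, ← Real.exp_add, ← Real.exp_add]; norm_num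
    have hb := Real.exp_one_lt_d9
    have hpos := Real.exp_pos (3 / 2)
    have h3 : Real.exp 1 * Real.exp 1 * Real.exp 1 ≤ 2.7182818286 * 2.7182818286 * 2.7182818286 :=
      mul_le_mul (mul_le_mul hb.le hb.le (Real.exp_pos _).le (by norm_num)) hb.le
        (Real.exp_pos _).le (by norm_num)
    by_contra hc
    have := mul_lt_mul'' (not_le.1 hc) (not_le.1 hc) (by norm_num) (by norm_num)
    norm_num at h3
    linarith
  have ey : Real.exp y ≤ 1 + 131 / 100 * y := by
    have := Real.exp_bound' y0 (by linarith) (n := 3) (by norm_num)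
    norm_num [Finset.sum_range_succ, Nat.factorial] at this
    nlinarith [mul_le_mul_of_nonneg_left y1 y0,
      mul_le_mul_of_nonneg_left (mul_le_mul_of_nonneg_left y1 y0) y0]
  have er : 1 + 9 / 2 * z + 117 / 8 * z ^ 2 ≤ Real.exp r := by
    refine le_trans ?_ (Real.quadratic_le_exp_of_nonneg r0)
    rw [hr]; nlinarith [pow_nonneg h0 3, pow_nonneg h0 4]
  have esplit : Real.exp (-(3 / 2 * (1 + z))) = 1 / (Real.exp (3 / 2) * Real.exp y) := by
    rw [← Real.exp_add, one_div, ← Real.exp_neg, hy]; ring_nf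
  rw [esplit, Real.exp_neg, ← one_div (Real.exp r)]
  have hp : 0 < Real.exp (3 / 2) * Real.exp y := by positivity
  have hq : 0 < 1 + 9 / 2 * z + 117 / 8 * z ^ 2 := by positivity
  have hE : Real.exp (3 / 2) * Real.exp y ≤ 4482 / 1000 * (1 + 131 / 100 * y) :=
    mul_le_mul e32 ey (Real.exp_pos _).le (by norm_num)
  have h2 : 1 / Real.exp r ≤ 1 / (1 + 9 / 2 * z + 117 / 8 * z ^ 2) :=
    one_div_le_one_div_of_le hq er
  rw [mul_one_div 18, le_div_iff₀ hp]
  refine (mul_le_mul (mul_le_mul_of_nonneg_left (add_le_add le_rfl h2) (by norm_num)) hE hp.le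
    (by positivity)).trans ?_
  rw [hy, add_div' _ _ _ hq.ne', mul_div_assoc', div_mul_eq_mul_div, div_le_iff₀ hq]
  nlinarith [mul_le_mul_of_nonneg_left h1 h0, mul_le_mul_of_nonneg_left h1 (sq_nonneg z)]

/-- On the critical line the mean squared bias at depth one is at most `99 / 20`. -/
theorem gwAvg_one_le (h0 : -1 / 2 ≤ lam) (hn : lam < 0) :
    gwAvg (1 / lam ^ 2) lam 1 (rf P2) ≤ 99 / 20 := by
  have h1 : lam ≤ 1 := by linarith
  have hl : 0 < lam ^ 2 := sq_pos_of_neg hn
  set d := 1 / lam ^ 2 with hd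
  have hd0 : 0 ≤ d := by positivity
  set a := (1 + 2 * lam) / 3 with ha
  set b := (1 - lam) / 3 with hb
  have a0 : 0 ≤ a := by rw [ha]; linarith
  have b0 : 0 ≤ b := by rw [hb]; linarith
  have hab : a + b = (2 + lam) / 3 := by rw [ha, hb]; ring
  have hab0 : a + b ≠ 0 := by linarith
  set θ := 2 * √(a * b) / (a + b) with hθ
  have hs : √(a * b) ^ 2 = a * b := Real.sq_sqrt (mul_nonneg a0 b0)
  set A := b + 2 * (θ * √(a * b)) with hA
  set B := (a + b) * θ ^ 2 + b with hB
  set C := a + 2 * b * θ ^ 2 with hC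
  have h2l : (2 + lam) ≠ 0 := by linarith
  have hlne : lam ≠ 0 := hn.ne
  have eA : d * (A - 1) = -(3 / (2 + lam)) := by
    rw [hA, hθ, show 2 * √(a * b) / (a + b) * √(a * b) = 2 * √(a * b) ^ 2 / (a + b) by ring,
      hs, hd, hab, ha, hb]
    field_simp; ring
  have eB : d * (B - 1) = -(3 / (2 + lam)) := by
    rw [hB, hθ, div_pow, mul_pow, hs, hd, hab, ha, hb]
    field_simp; ring
  have eC : d * (C - 1) = -(6 * (1 - lam) / (2 + lam) ^ 2) := by
    rw [hC, hθ, div_pow, mul_pow, hs, hd, hab, ha, hb]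
    field_simp; ring
  set EA := Real.exp (d * (A - 1)) with hEA
  set EB := Real.exp (d * (B - 1)) with hEB
  set EC := Real.exp (d * (C - 1)) with hEC
  set c := EA / (2 * EB + EC) with hc
  have heq : ∀ n, gwAvg d lam n (rf P2) = gwAvg d lam n (rf fun r => ∑ i, r i ^ 2) := fun n =>
    tsum_congr fun t => by simp only [fval, rf_P2_eq]
  rw [heq, gwAvg_succ hd0 h0 h1 posi_P2.toSublin 0]
  have hS := hasSum_poisson_pow d
  have hsum : HasSum (fun k => poissonWeight d k * (6 - 18 * (2 * c * A ^ k -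
      c ^ 2 * (2 * B ^ k + C ^ k)))) (6 - 18 * (2 * c * EA - c ^ 2 * (2 * EB + EC))) := by
    have := ((hasSum_poisson d).mul_left 6).sub
      ((((hS A).mul_left (2 * c)).sub ((((hS B).mul_left 2).add (hS C)).mul_left (c ^ 2))).mul_left 18)
    rw [mul_one] at this
    exact this.congr_fun fun k => by ring
  have hw := gwWeight_nonneg hd0 0
  have hs' := hasSum_gw hd0 0
  have hB' : ∀ {k : ℕ} (g : Fin k → RTree 0),
      |fval (rf fun r => ∑ i, r i ^ 2) (prodL fun j => edge lam (lik lam 0 (g j)))| ≤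
        fbound (rf fun r => ∑ i, r i ^ 2) := fun g =>
    abs_fval_le posi_P2.toSublin (isStoch_prodL fun j => (isStoch_lik h0 h1 0 _).edge h0 h1)
  refine (Summable.tsum_le_tsum (fun k => ?_) (summable_weighted (poissonWeight_nonneg hd0)
    (hasSum_poisson d).summable fun k => abs_piAvg_le hw hs' hB') hsum.summable).trans ?_
  · refine mul_le_mul_of_nonneg_left ?_ (poissonWeight_nonneg hd0 k)
    have e : ∀ g : Fin k → RTree 0,
        fval (rf fun r => ∑ i, r i ^ 2) (prodL fun j => edge lam (lik lam 0 (g j))) =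
          fval (rf P2) (prodL fun _ : Fin k => fun (e : Fin 3) (i : Fin 3) => potts lam i e) :=
      fun g => by
        rw [← show rf P2 = rf fun r => ∑ i, r i ^ 2 from funext rf_P2_eq]
        refine fval_congr (Equiv.piCongrRight fun _ => Equiv.funUnique Unit (Fin 3)) fun η =>
          funext fun i => Finset.prod_congr rfl fun j _ => ?_
        show push lam (fun i => if η j () = i then 1 else 0) i = potts lam i (η j ())
        generalize η j () = e
        fin_cases i <;> fin_cases e <;> simp [push, tot, potts]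
    simp only [piAvg, e, tsum_mul_right, (hasSum_prodWeight hw hs' k).tsum_eq, one_mul]
    exact fval_star_le h0 h1 c θ
  rw [hsum.tsum_eq]
  have hden : 0 < 2 * EB + EC := by positivity
  have hval : 6 - 18 * (2 * c * EA - c ^ 2 * (2 * EB + EC)) = 6 - 18 * (EA ^ 2 / (2 * EB + EC)) := by
    rw [hc]; field_simp; ring
  rw [hval]
  set z := -lam / (2 + lam) with hz
  have z0 : 0 ≤ z := div_nonneg (by linarith) (by linarith)
  have z1 : z ≤ 1 / 3 := by rw [hz, div_le_iff₀ (by linarith)]; linarith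
  have e1 : EA = Real.exp (-(3 / 2 * (1 + z))) := by
    rw [hEA, eA]; congr 1; rw [hz]; field_simp; ring
  have e2 : EB = EA := by rw [hEB, hEA, eA, eB]
  have e3 : EC = EA * Real.exp (-(9 / 2 * z * (1 + z))) := by
    rw [e1, ← Real.exp_add, hEC, eC]; congr 1; rw [hz]; field_simp; ring
  have hn' := first_num z0 z1
  rw [← e1] at hn'
  set W := Real.exp (-(9 / 2 * z * (1 + z)))
  have : EA ^ 2 / (2 * EB + EC) = EA / (2 + W) := by
    rw [e2, e3, sq, show 2 * EA + EA * W = EA * (2 + W) by ring,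
      mul_div_mul_left _ _ (ne_of_gt (Real.exp_pos _))]
  rw [this]
  have hW : 0 < 2 + W := by positivity
  have : 21 / 20 ≤ 18 * EA / (2 + W) := by rw [le_div_iff₀ hW]; linarith
  rw [mul_div_assoc] at this
  linarith

/-- Every limit of the mean squared bias on the critical line is at most `99 / 20`. -/
theorem limit_P2_le (h0 : -1 / 2 ≤ lam) (hn : lam < 0) {P : ℝ}
    (hP : Tendsto (fun n => gwAvg (1 / lam ^ 2) lam n (rf P2)) atTop (𝓝 P)) : P ≤ 99 / 20 := by
  have hd : 0 ≤ 1 / lam ^ 2 := by positivity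
  have heq : ∀ n, gwAvg (1 / lam ^ 2) lam n (rf P2) =
      gwAvg (1 / lam ^ 2) lam n (rf fun r => ∑ i, r i ^ 2) := fun n =>
    tsum_congr fun t => by simp only [fval, rf_P2_eq]
  refine le_of_tendsto hP (eventually_atTop.2 ⟨1, fun n hn' => le_trans ?_ (gwAvg_one_le h0 hn)⟩)
  rw [heq, heq]
  exact antitone_nat_of_succ_le (f := fun j => gwAvg (1 / lam ^ 2) lam j _)
    (fun j => gwAvg_succ_le hd h0 (by linarith) j posi_P2.toSublin) hn'

end Vale.Agent.P154.Q3
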